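import Vale.Agent.Lib.P002.G1Defs

/-!
Explicit LU factorization of a rank one perturbation of the identity with unit pivots, and the
block step for quadruples with U L = l b (pool piece G1-A).
-/

namespace Vale.Agent.Lib.P002.H99

open Matrix
open Vale.Agent.Lib.P002

theorem g1_rank_one_lu {R : Type*} [CommRing R] : ∀ (k : ℕ) (s : ℕ → Rˣ) (ξ η : Fin k → R),
    (∀ i : Fin k, ξ i * η i = (s i.val : R) - (s (i.val + 1) : R)) →
    ∃ Λ Bq : Matrix (Fin k) (Fin k) R, (∀ i j, i < j → Λ i j = 0) ∧ (∀ i, Λ i i = 1) ∧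
      (∀ i j, j < i → Bq i j = 0) ∧
      (∀ i, Bq i i = ((s (i.val + 1) * (s i.val)⁻¹ : Rˣ) : R)) ∧
      Λ * Bq = 1 - (((s 0)⁻¹ : Rˣ) : R) • Matrix.vecMulVec η ξ := by
  intro k
  induction k with
  | zero =>
    intro s ξ η _
    refine ⟨0, 0, fun i => i.elim0, fun i => i.elim0, fun i => i.elim0, fun i => i.elim0, ?_⟩
    ext i
    exact i.elim0
  | succ k ih =>
    intro s ξ η h
    have hstep : ∀ i : Fin k, ξ i.succ * η i.succ =
        ((s (i.val + 1) : Rˣ) : R) - ((s (i.val + 1 + 1) : Rˣ) : R) := fun i => h i.succ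
    obtain ⟨Λ', Bq', hΛ1, hΛ2, hB1, hB2, hprod⟩ :=
      ih (fun t => s (t + 1)) (fun i => ξ i.succ) (fun i => η i.succ) hstep
    have hprod' : Λ' * Bq' = 1 - (((s 1)⁻¹ : Rˣ) : R) •
        Matrix.vecMulVec (fun i => η i.succ) (fun i => ξ i.succ) := hprod
    have e0 : ((s 0 : Rˣ) : R) * (((s 0)⁻¹ : Rˣ) : R) = 1 := Units.mul_inv (s 0)
    have e1 : ((s 1 : Rˣ) : R) * (((s 1)⁻¹ : Rˣ) : R) = 1 := Units.mul_inv (s 1)
    have h0 : ξ 0 * η 0 = ((s 0 : Rˣ) : R) - ((s 1 : Rˣ) : R) := h 0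
    refine ⟨bmat 1 0 (fun i => -(ξ 0 * (((s 1)⁻¹ : Rˣ) : R)) * η i.succ) Λ',
      bmat (((s 1 : Rˣ) : R) * (((s 0)⁻¹ : Rˣ) : R))
        (fun j => -(η 0 * (((s 0)⁻¹ : Rˣ) : R)) * ξ j.succ) 0 Bq', ?_, ?_, ?_, ?_, ?_⟩
    · intro i j
      refine Fin.cases ?_ (fun i => ?_) i <;> refine Fin.cases ?_ (fun j => ?_) j
      · intro hij
        exact absurd hij (lt_irrefl _)
      · intro _
        rfl
      · intro hij
        exact absurd hij (Fin.not_lt_zero _)
      · intro hij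
        rw [bmat_succ_succ]
        exact hΛ1 i j (Fin.succ_lt_succ_iff.mp hij)
    · intro i
      refine Fin.cases ?_ (fun i => ?_) i
      · rfl
      · rw [bmat_succ_succ]
        exact hΛ2 i
    · intro i j
      refine Fin.cases ?_ (fun i => ?_) i <;> refine Fin.cases ?_ (fun j => ?_) j
      · intro hij
        exact absurd hij (lt_irrefl _)
      · intro hij
        exact absurd hij (Fin.not_lt_zero _)
      · intro _
        rfl
      · intro hij
        rw [bmat_succ_succ]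
        exact hB1 i j (Fin.succ_lt_succ_iff.mp hij)
    · intro i
      refine Fin.cases ?_ (fun i => ?_) i
      · rw [bmat_zero_zero]
        exact (Units.val_mul (s 1) (s 0)⁻¹).symm
      · rw [bmat_succ_succ, hB2 i]
        rfl
    · rw [bmat_mul]
      ext i j
      refine Fin.cases ?_ (fun i => ?_) i <;> refine Fin.cases ?_ (fun j => ?_) j
      · simp only [bmat_zero_zero, Matrix.sub_apply, Matrix.smul_apply, Matrix.vecMulVec_apply,
          smul_eq_mul, Matrix.one_apply_eq, one_mul, zero_dotProduct, add_zero]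
        linear_combination (((s 0)⁻¹ : Rˣ) : R) * h0 + e0
      · simp only [bmat_zero_succ, Matrix.sub_apply, Matrix.smul_apply, Matrix.vecMulVec_apply,
          smul_eq_mul, Matrix.one_apply_ne (Fin.succ_ne_zero j).symm, one_smul,
          Matrix.zero_vecMul, add_zero]
        ring
      · simp only [bmat_succ_zero, Matrix.sub_apply, Matrix.smul_apply, Matrix.vecMulVec_apply,
          smul_eq_mul, Matrix.one_apply_ne (Fin.succ_ne_zero i), Matrix.mulVec_zero, add_zero,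
          Pi.smul_apply]
        linear_combination (-(((s 0)⁻¹ : Rˣ) : R) * ξ 0 * η i.succ) * e1
      · have hij := congrFun (congrFun hprod' i) j
        simp only [Matrix.sub_apply, Matrix.smul_apply, Matrix.vecMulVec_apply, smul_eq_mul,
          Matrix.one_apply] at hij
        simp only [bmat_succ_succ, Matrix.add_apply, Matrix.sub_apply, Matrix.smul_apply,
          Matrix.vecMulVec_apply, smul_eq_mul, Matrix.one_apply, Fin.succ_inj]
        rw [hij]
        linear_combination (η i.succ * ξ j.succ * (((s 1)⁻¹ : Rˣ) : R) * (((s 0)⁻¹ : Rˣ) : R)) * h0 +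
          (η i.succ * ξ j.succ * (((s 1)⁻¹ : Rˣ) : R)) * e0 -
          (η i.succ * ξ j.succ * (((s 0)⁻¹ : Rˣ) : R)) * e1

theorem g1_step {R : Type*} [CommRing R] (k : ℕ) (U' L' Ui Li l' b' : Matrix (Fin k) (Fin k) R)
    (hUi : U' * Ui = 1) (hLi : L' * Li = 1)
    (hl : ∀ i j, i < j → l' i j = 0) (hl1 : ∀ i, l' i i = 1) (hb : ∀ i j, j < i → b' i j = 0)
    (hq : U' * L' = l' * b')
    (a b : R) (s : ℕ → Rˣ) (ξ η : Fin k → R)
    (hs : ∀ i : Fin k, ξ i * η i = (s i.val : R) - (s (i.val + 1) : R))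
    (hsk : (s k : R) = a * b) :
    ∃ (ρ c : Fin k → R) (l bt : Matrix (Fin (k + 1)) (Fin (k + 1)) R),
      ρ ᵥ* L' = ξ ᵥ* b' ∧ U' *ᵥ c = l' *ᵥ η ∧
      (∀ i j, i < j → l i j = 0) ∧ (∀ i, l i i = 1) ∧ (∀ i j, j < i → bt i j = 0) ∧
      bt 0 0 = (s 0 : R) ∧
      (∀ i : Fin k, bt i.succ i.succ = ((s (i.val + 1) * (s i.val)⁻¹ : Rˣ) : R) * b' i i) ∧
      bmat a ρ 0 U' * bmat b 0 c L' = l * bt := by
  obtain ⟨Λ, Bq, hΛ1, hΛ2, hB1, hB2, hprod⟩ := g1_rank_one_lu k s ξ η hs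
  have hLi' : Li * L' = 1 := (_root_.mul_eq_one_comm).mp hLi
  have e0 : ((s 0 : Rˣ) : R) * (((s 0)⁻¹ : Rˣ) : R) = 1 := Units.mul_inv (s 0)
  have hρ : ((ξ ᵥ* b') ᵥ* Li) ᵥ* L' = ξ ᵥ* b' := by
    rw [Matrix.vecMul_vecMul, hLi', Matrix.vecMul_one]
  have hc : U' *ᵥ (Ui *ᵥ (l' *ᵥ η)) = l' *ᵥ η := by
    rw [Matrix.mulVec_mulVec, hUi, Matrix.one_mulVec]
  have hX : l' * (b' * (Li * Ui)) = 1 := by
    calc l' * (b' * (Li * Ui)) = (l' * b') * (Li * Ui) := by rw [Matrix.mul_assoc]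
      _ = (U' * L') * (Li * Ui) := by rw [hq]
      _ = U' * ((L' * Li) * Ui) := by simp only [Matrix.mul_assoc]
      _ = 1 := by rw [hLi, Matrix.one_mul, hUi]
  have hY : (b' * (Li * Ui)) * l' = 1 := (_root_.mul_eq_one_comm).mp hX
  have hY' : b' * (Li * (Ui * l')) = 1 := by
    rw [← hY]
    simp only [Matrix.mul_assoc]
  have hdot : ((ξ ᵥ* b') ᵥ* Li) ⬝ᵥ (Ui *ᵥ (l' *ᵥ η)) = ξ ⬝ᵥ η := by
    rw [Matrix.dotProduct_mulVec, Matrix.dotProduct_mulVec, Matrix.vecMul_vecMul,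
      Matrix.vecMul_vecMul, Matrix.vecMul_vecMul, hY', Matrix.vecMul_one]
  have hsum : ξ ⬝ᵥ η = ((s 0 : Rˣ) : R) - ((s k : Rˣ) : R) := by
    unfold dotProduct
    rw [Finset.sum_congr rfl (fun i _ => hs i),
      Fin.sum_univ_eq_sum_range (fun t => ((s t : Rˣ) : R) - ((s (t + 1) : Rˣ) : R)) k]
    exact Finset.sum_range_sub' (fun t => ((s t : Rˣ) : R)) k
  refine ⟨(ξ ᵥ* b') ᵥ* Li, Ui *ᵥ (l' *ᵥ η),
    bmat 1 0 ((((s 0)⁻¹ : Rˣ) : R) • (l' *ᵥ η)) (l' * Λ),
    bmat ((s 0 : Rˣ) : R) (ξ ᵥ* b') 0 (Bq * b'), hρ, hc, ?_, ?_, ?_, ?_, ?_, ?_⟩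
  · intro i j
    refine Fin.cases ?_ (fun i => ?_) i <;> refine Fin.cases ?_ (fun j => ?_) j
    · intro hij
      exact absurd hij (lt_irrefl _)
    · intro _
      rfl
    · intro hij
      exact absurd hij (Fin.not_lt_zero _)
    · intro hij
      rw [bmat_succ_succ]
      exact lt_mul hl hΛ1 i j (Fin.succ_lt_succ_iff.mp hij)
  · intro i
    refine Fin.cases ?_ (fun i => ?_) i
    · rfl
    · rw [bmat_succ_succ, lt_mul_diag hl hΛ1, hl1, hΛ2, one_mul]
  · intro i j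
    refine Fin.cases ?_ (fun i => ?_) i <;> refine Fin.cases ?_ (fun j => ?_) j
    · intro hij
      exact absurd hij (lt_irrefl _)
    · intro hij
      exact absurd hij (Fin.not_lt_zero _)
    · intro _
      rfl
    · intro hij
      rw [bmat_succ_succ]
      exact ut_mul hB1 hb i j (Fin.succ_lt_succ_iff.mp hij)
  · rfl
  · intro i
    rw [bmat_succ_succ, ut_mul_diag hB1 hb, hB2]
  · rw [bmat_mul, bmat_mul]
    congr 1
    · rw [hdot, hsum, hsk]
      simp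
    · rw [hρ]
      simp
    · rw [hc, smul_smul, e0]
      simp
    · rw [hq]
      have hblock : l' * Λ * (Bq * b') =
          l' * b' - (((s 0)⁻¹ : Rˣ) : R) • vecMulVec (l' *ᵥ η) (ξ ᵥ* b') := by
        calc l' * Λ * (Bq * b') = l' * (Λ * Bq) * b' := by simp only [Matrix.mul_assoc]
          _ = l' * (1 - (((s 0)⁻¹ : Rˣ) : R) • vecMulVec η ξ) * b' := by rw [hprod]
          _ = l' * b' - (((s 0)⁻¹ : Rˣ) : R) • (l' * vecMulVec η ξ * b') := by
              rw [Matrix.mul_sub, Matrix.sub_mul, Matrix.mul_one, Matrix.mul_smul,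
                Matrix.smul_mul]
          _ = l' * b' - (((s 0)⁻¹ : Rˣ) : R) • vecMulVec (l' *ᵥ η) (ξ ᵥ* b') := by
              rw [Matrix.mul_vecMulVec, Matrix.vecMulVec_mul]
      rw [hblock, Matrix.smul_vecMulVec]
      simp

end Vale.Agent.Lib.P002.H99
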